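import Vale.Agent.P299.H721.Quad
import Vale.Agent.P299.H835.IX.Fock
import Mathlib.Analysis.Matrix.Spectrum

/-!
# P299, INDEX-POS: the model operator at a zero of the vector field
-/

open scoped ComplexOrder Matrix
open Vale.Agent.P299.H721 Vale.Agent.P299.IX Vale.Agent.P299.IX.Fock

noncomputable section

namespace Vale.Agent.P299.H996.IX

variable {n : ℕ}

/-- a Hermitian form and a self-adjoint endomorphism are diagonal in a common basis -/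
theorem exists_diag (w A : Matrix (Fin n) (Fin n) ℂ) (hw : w.PosDef)
    (hA : A * w = w * Aᴴ) :
    ∃ (G : Matrix (Fin n) (Fin n) ℂ) (D : Fin n → ℝ), IsUnit G.det ∧ w = G * Gᴴ ∧
      A = G * Matrix.diagonal (fun q => (D q : ℂ)) * G⁻¹ := by
  obtain ⟨C, hC⟩ := exists_factor hw.inv.posSemidef
  have hwu : IsUnit w.det := (Matrix.isUnit_iff_isUnit_det w).1 hw.isUnit
  have hCu : IsUnit C.det := by
    have h1 : IsUnit (w⁻¹).det := Matrix.isUnit_nonsing_inv_det _ hwu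
    rw [hC, Matrix.det_mul] at h1
    exact isUnit_of_mul_isUnit_right h1
  have hCu' : IsUnit (Cᴴ).det := by
    rw [Matrix.det_conjTranspose]; exact hCu.star
  have hw2 : w = C⁻¹ * (Cᴴ)⁻¹ := by
    rw [← Matrix.nonsing_inv_nonsing_inv w hwu, hC, Matrix.mul_inv_rev]
  set H := C * A * C⁻¹ with hH
  have hHh : H.IsHermitian := by
    have h1 : (C⁻¹)ᴴ = (Cᴴ)⁻¹ := Matrix.conjTranspose_nonsing_inv C
    have h2 : A * (C⁻¹ * (Cᴴ)⁻¹) = C⁻¹ * (Cᴴ)⁻¹ * Aᴴ := by rw [← hw2]; exact hA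
    show (C * A * C⁻¹)ᴴ = C * A * C⁻¹
    rw [Matrix.conjTranspose_mul, Matrix.conjTranspose_mul, h1]
    calc (Cᴴ)⁻¹ * (Aᴴ * Cᴴ) = C * (C⁻¹ * (Cᴴ)⁻¹ * Aᴴ) * Cᴴ := by
          have : C * C⁻¹ = 1 := Matrix.mul_nonsing_inv _ hCu
          simp only [← Matrix.mul_assoc, this, Matrix.one_mul]
      _ = C * A * C⁻¹ * ((Cᴴ)⁻¹ * Cᴴ) := by rw [← h2]; simp only [Matrix.mul_assoc]
      _ = C * A * C⁻¹ := by rw [Matrix.nonsing_inv_mul _ hCu', Matrix.mul_one]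
  set U : Matrix (Fin n) (Fin n) ℂ := (hHh.eigenvectorUnitary : Matrix (Fin n) (Fin n) ℂ) with hU
  have hUU : U * Uᴴ = 1 := by
    have := (Matrix.mem_unitaryGroup_iff).1 hHh.eigenvectorUnitary.2
    rwa [Matrix.star_eq_conjTranspose] at this
  have hUU' : Uᴴ * U = 1 := mul_eq_one_comm.1 hUU
  have hspec : H = U * Matrix.diagonal (fun q => ((hHh.eigenvalues q : ℝ) : ℂ)) * Uᴴ := by
    have := hHh.spectral_theorem
    rw [Unitary.conjStarAlgAut_apply] at this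
    rw [← Matrix.star_eq_conjTranspose]
    exact this
  have hUu : IsUnit U.det := by
    have h1 := congrArg Matrix.det hUU
    rw [Matrix.det_mul, Matrix.det_one] at h1
    exact IsUnit.of_mul_eq_one _ h1
  refine ⟨C⁻¹ * U, hHh.eigenvalues, ?_, ?_, ?_⟩
  · rw [Matrix.det_mul]
    exact (Matrix.isUnit_nonsing_inv_det _ hCu).mul hUu
  · rw [Matrix.conjTranspose_mul, Matrix.conjTranspose_nonsing_inv]
    calc w = C⁻¹ * (U * Uᴴ) * (Cᴴ)⁻¹ := by rw [hUU, Matrix.mul_one]; exact hw2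
      _ = _ := by simp only [Matrix.mul_assoc]
  · have h1 : U⁻¹ = Uᴴ := Matrix.inv_eq_left_inv hUU'
    rw [Matrix.mul_inv_rev, Matrix.nonsing_inv_nonsing_inv _ hCu, h1]
    have h2 : A = C⁻¹ * H * C := by
      rw [hH]
      have e1 : C⁻¹ * C = 1 := Matrix.nonsing_inv_mul _ hCu
      calc A = (C⁻¹ * C) * A * (C⁻¹ * C) := by rw [e1, Matrix.one_mul, Matrix.mul_one]
        _ = _ := by simp only [Matrix.mul_assoc]
    have h3 : C⁻¹ * H * C =
        C⁻¹ * (U * Matrix.diagonal (fun q => ((hHh.eigenvalues q : ℝ) : ℂ)) * Uᴴ) * C :=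
      congrArg (fun Z => C⁻¹ * Z * C) hspec
    rw [h2, h3]
    simp only [Matrix.mul_assoc]

theorem qf_conj_le {G : Matrix (Fin n) (Fin n) ℂ} (hG : IsUnit G.det) {c : Fin n → ℂ}
    (hc : ∀ q, ‖c q‖ ≤ 1) (x : Fin n → ℂ) :
    qf ((G * Gᴴ)ᵀ) (((G⁻¹)ᵀ * Matrix.diagonal c * Gᵀ) *ᵥ x) ≤ qf ((G * Gᴴ)ᵀ) x := by
  have h1 : (G * Gᴴ)ᵀ = (Gᵀ)ᴴ * Gᵀ := by
    rw [Matrix.transpose_mul]
    congr 1
  have h2 : Gᵀ * (G⁻¹)ᵀ = 1 := by
    rw [← Matrix.transpose_mul, Matrix.nonsing_inv_mul _ hG, Matrix.transpose_one]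
  rw [h1, qf_conj, qf_conj]
  refine Finset.sum_le_sum fun q _ => ?_
  rw [Matrix.mulVec_mulVec, ← Matrix.mul_assoc, ← Matrix.mul_assoc, h2, Matrix.one_mul,
    ← Matrix.mulVec_mulVec, Matrix.mulVec_diagonal]
  refine pow_le_pow_left₀ (norm_nonneg _) ?_ 2
  rw [norm_mul]
  exact mul_le_of_le_one_left (norm_nonneg _) (hc q)

/-- **INDEX-POS** -/
theorem pos_point (w B : Matrix (Fin n) (Fin n) ℂ) (hw : w.PosDef)
    (hB : Bᵀ * w + w * B.map star = 0) :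
    (Complex.I * B.trace).im = 0 ∧
    ∃ S : Matrix (Fin n) (Fin n) ℂ, (∀ x, qf wᵀ (S *ᵥ x) ≤ qf wᵀ x) ∧
      ∀ a : FI n → ℂ, (Complex.I * B.trace).re * qf (lam w⁻¹) a ≤
        (star a ⬝ᵥ (lam w⁻¹ *ᵥ (Complex.I • (dlam Bᵀ *ᵥ a)))).re +
          (S * B).trace.re * qf (lam w⁻¹) a := by
  obtain ⟨G, D, hG, hwG, hA⟩ := exists_diag w (Complex.I • Bᵀ) hw (by
    have h1 : (Complex.I • Bᵀ)ᴴ = -(Complex.I • B.map star) := by
      ext i j
      simp [Matrix.conjTranspose_apply]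
    have h2 : Bᵀ * w = -(w * B.map star) := eq_neg_of_add_eq_zero_left hB
    rw [h1, Matrix.smul_mul, h2, Matrix.mul_neg, Matrix.mul_smul, smul_neg])
  have hGi : G⁻¹ * G = 1 := Matrix.nonsing_inv_mul _ hG
  have hGi' : G * G⁻¹ = 1 := Matrix.mul_nonsing_inv _ hG
  set Dg : Matrix (Fin n) (Fin n) ℂ := Matrix.diagonal (fun q => (D q : ℂ)) with hDg
  -- the trace
  have htr : Complex.I * B.trace = ∑ q, (D q : ℂ) := by
    have h1 : (Complex.I • Bᵀ).trace = Complex.I * B.trace := by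
      rw [Matrix.trace_smul, Matrix.trace_transpose, smul_eq_mul]
    rw [← h1, hA, Matrix.trace_mul_comm, ← Matrix.mul_assoc, hGi, Matrix.one_mul, hDg,
      Matrix.trace_diagonal]
  have htr2 : Complex.I * B.trace = ((∑ q, D q : ℝ) : ℂ) := by rw [htr]; push_cast; rfl
  refine ⟨by rw [htr2, Complex.ofReal_im], ?_⟩
  set c : Fin n → ℂ := fun q => if 0 < D q then Complex.I else 0 with hc
  refine ⟨(G⁻¹)ᵀ * Matrix.diagonal c * Gᵀ, ?_, ?_⟩
  · intro x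
    rw [hwG]
    refine qf_conj_le hG (fun q => ?_) x
    simp only [hc]
    split_ifs <;> simp
  · intro a
    -- the trace of `S B`
    have hBt : B = -Complex.I • ((G⁻¹)ᵀ * Dg * Gᵀ) := by
      have h1 : (Complex.I • Bᵀ)ᵀ = (G⁻¹)ᵀ * Dg * Gᵀ := by
        rw [hA, Matrix.transpose_mul, Matrix.transpose_mul, hDg, Matrix.diagonal_transpose,
          Matrix.mul_assoc]
      rw [← h1, Matrix.transpose_smul, Matrix.transpose_transpose, smul_smul]
      simp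
    have hSB : ((G⁻¹)ᵀ * Matrix.diagonal c * Gᵀ * B).trace = ((∑ q, max (D q) 0 : ℝ) : ℂ) := by
      have h2 : Gᵀ * (G⁻¹)ᵀ = 1 := by
        rw [← Matrix.transpose_mul, hGi, Matrix.transpose_one]
      rw [hBt, Matrix.mul_smul, Matrix.trace_smul]
      have h3 : (G⁻¹)ᵀ * Matrix.diagonal c * Gᵀ * ((G⁻¹)ᵀ * Dg * Gᵀ) =
          (G⁻¹)ᵀ * (Matrix.diagonal c * Dg) * Gᵀ := by
        calc (G⁻¹)ᵀ * Matrix.diagonal c * Gᵀ * ((G⁻¹)ᵀ * Dg * Gᵀ) =
            (G⁻¹)ᵀ * (Matrix.diagonal c * (Gᵀ * (G⁻¹)ᵀ) * Dg) * Gᵀ := by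
              simp only [Matrix.mul_assoc]
          _ = _ := by rw [h2, Matrix.mul_one]
      rw [h3, Matrix.trace_mul_comm, ← Matrix.mul_assoc, h2, Matrix.one_mul, hDg,
        Matrix.diagonal_mul_diagonal, Matrix.trace_diagonal, Finset.smul_sum]
      push_cast
      refine Finset.sum_congr rfl fun q _ => ?_
      simp only [hc, smul_eq_mul]
      split_ifs with h
      · rw [max_eq_left h.le, ← mul_assoc]
        simp
      · rw [max_eq_right (not_lt.1 h)]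
        simp
    -- the Fock space part
    have hwi : w⁻¹ = (G⁻¹)ᴴ * G⁻¹ := by
      rw [hwG, Matrix.mul_inv_rev, Matrix.conjTranspose_nonsing_inv]
    have hlw : lam w⁻¹ = (lam G⁻¹)ᴴ * lam G⁻¹ := by
      rw [hwi, lam_mul, lam_conjTranspose]
    have hcomm : lam G⁻¹ * dlam (Complex.I • Bᵀ) = dlam Dg * lam G⁻¹ := by
      refine lam_dlam ?_
      rw [hA, ← Matrix.mul_assoc, ← Matrix.mul_assoc, hGi, Matrix.one_mul]
    set b := lam G⁻¹ *ᵥ a with hb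
    have hq : qf (lam w⁻¹) a = ∑ I, ‖b I‖ ^ 2 := by rw [hlw, qf_conj]
    have hd : (star a ⬝ᵥ (lam w⁻¹ *ᵥ (Complex.I • (dlam Bᵀ *ᵥ a)))).re =
        ∑ I, (∑ q ∈ I, D q) * ‖b I‖ ^ 2 := by
      have e1 : lam w⁻¹ *ᵥ (Complex.I • (dlam Bᵀ *ᵥ a)) = (lam G⁻¹)ᴴ *ᵥ (dlam Dg *ᵥ b) := by
        rw [← Matrix.smul_mulVec, ← dlam_smul, hlw, hb, Matrix.mulVec_mulVec, Matrix.mulVec_mulVec,
          Matrix.mulVec_mulVec, Matrix.mul_assoc, hcomm, Matrix.mul_assoc]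
      have e2 : star a ⬝ᵥ ((lam G⁻¹)ᴴ *ᵥ (dlam Dg *ᵥ b)) = star b ⬝ᵥ (dlam Dg *ᵥ b) := by
        rw [hb, Matrix.star_mulVec, Matrix.dotProduct_mulVec]
      rw [e1, e2, dotProduct, Complex.re_sum]
      refine Finset.sum_congr rfl fun I _ => ?_
      rw [hDg, dlam_diagonal_mulVec, Pi.star_apply, Complex.star_def]
      have e3 : (starRingEnd ℂ) (b I) * ((∑ q ∈ I, (D q : ℂ)) * b I) =
          (((∑ q ∈ I, D q) * ‖b I‖ ^ 2 : ℝ) : ℂ) := by
        have := Complex.mul_conj' (b I)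
        push_cast
        rw [← this]; ring
      rw [e3, Complex.ofReal_re]
    rw [htr2, Complex.ofReal_re, hd, hSB, Complex.ofReal_re, hq, Finset.mul_sum, Finset.mul_sum,
      ← Finset.sum_add_distrib]
    refine Finset.sum_le_sum fun I _ => ?_
    rw [← add_mul]
    refine mul_le_mul_of_nonneg_right ?_ (by positivity)
    have h1 : ∑ q, D q = ∑ q ∈ I, D q + ∑ q ∈ Iᶜ, D q := (Finset.sum_add_sum_compl I D).symm
    have h2 : ∑ q ∈ Iᶜ, D q ≤ ∑ q, max (D q) 0 :=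
      (Finset.sum_le_sum fun q _ => le_max_left _ _).trans
        (Finset.sum_le_sum_of_subset_of_nonneg (Finset.subset_univ _) fun q _ _ => le_max_right _ _)
    linarith

end Vale.Agent.P299.H996.IX
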